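import Vale.Agent.P038.H599.SubM

/-!
# P038 (H599): inner minimum ≤ outer minimum
-/

namespace Vale.Agent.P038.H599

open Finset Classical

universe u

variable {V : Type u} [Fintype V]

/-- Inner feasible pairs: rows contain their index, and the pair of closures has no common
nondiagonal position. -/
structure Inn (D : OGraph V) (X Y : V → Finset V) : Prop where
  dX : ∀ a, a ∈ X a
  dY : ∀ a, a ∈ Y a
  opp : ∀ a u, u ∈ cl D (X a) → u ≠ a → a ∉ cl D (Y u)

/-- Transposition count. -/
theorem count_swap (P : V → V → Prop) [∀ x z, Decidable (P x z)] :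
    ∑ x, ((univ.filter fun z => P x z).card : ℤ) = ∑ z, ((univ.filter fun x => P x z).card : ℤ) := by
  have h1 : ∀ x, ((univ.filter fun z => P x z).card : ℤ) = ∑ z, if P x z then (1 : ℤ) else 0 := by
    intro x
    simp
  have h2 : ∀ z, ((univ.filter fun x => P x z).card : ℤ) = ∑ x, if P x z then (1 : ℤ) else 0 := by
    intro x
    simp
  simp only [h1, h2]
  exact Finset.sum_comm

theorem card_notMem (S : Finset V) :
    ((univ.filter fun x => x ∉ S).card : ℤ) = Fintype.card V - S.card := by
  have h1 : (univ.filter fun x => x ∉ S) = Sᶜ := by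
    ext x
    simp
  rw [h1, Finset.card_compl, Nat.cast_sub (Finset.card_le_univ S)]

/-- The inner candidate built from an optimal outer pair. -/
theorem candidate {D : OGraph V} {B U : V → Finset V} (h : Opt D B U) :
    ∃ X Y, Inn D X Y ∧ ∑ a, hh D (X a) + ∑ a, hh D (Y a) ≤ GG D B U := by
  have hrev := h.1.rev
  -- no reversed arc in the closure of the meets
  have hM : ∀ a z, D.arc a z → a ∉ cl D (meet D U z) := by
    intro a z haz hcl
    obtain ⟨y, hy, hya⟩ := mem_cl.1 hcl
    have h1 : y ∈ U a := mem_meet.1 hy a (Or.inr haz)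
    rcases hya with rfl | hya
    · exact hrev z y haz (mem_meet.1 hy z (Or.inl rfl))
    · exact hrev a y hya h1
  have hUU : ∀ a, a ∈ U a := fun a => h.1.sub a (h.1.adj a a (Or.inl rfl))
  set Y : V → Finset V := fun x => insert x (univ.filter fun z => x ∉ cl D (U z)) with hY
  refine ⟨meet D B, Y, ⟨?_, ?_, ?_⟩, ?_⟩
  · intro a
    exact mem_meet.2 fun b hb => h.1.adj b a hb
  · intro a
    exact Finset.mem_insert_self _ _
  · intro z u hu huz hz
    obtain ⟨y, hy, hyz⟩ := mem_cl.1 hz
    have hu' : u ∈ cl D (meet D U z) := cl_mono (meet_mono h.1.sub z) hu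
    rcases Finset.mem_insert.1 hy with rfl | hy
    · rcases hyz with hyz | hyz
      · exact huz hyz
      · exact hM _ _ hyz hu'
    · exact (Finset.mem_filter.1 hy).2 (cl_mono (meet_sub hyz) hu')
  · have e1 : ∀ x, ((Y x).card : ℤ) = 1 + ((univ.filter fun z => x ∉ cl D (U z)).card : ℤ) := by
      intro x
      simp only [hY]
      rw [Finset.card_insert_of_notMem]
      · push_cast
        ring
      · intro hx
        exact (Finset.mem_filter.1 hx).2 (subset_cl D _ (hUU x))
    have e2 : ∀ x, ((cl D (Y x)).card : ℤ) ≤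
        1 + ((univ.filter fun z => x ∉ cl D (meet D U z)).card : ℤ) := by
      intro x
      have h1 : cl D (Y x) ⊆ insert x (univ.filter fun z => x ∉ cl D (meet D U z)) := by
        intro z hz
        obtain ⟨y, hy, hyz⟩ := mem_cl.1 hz
        rcases Finset.mem_insert.1 hy with rfl | hy
        · rcases hyz with rfl | hyz
          · exact Finset.mem_insert_self _ _
          · exact Finset.mem_insert_of_mem (Finset.mem_filter.2 ⟨mem_univ _, hM _ _ hyz⟩)
        · refine Finset.mem_insert_of_mem (Finset.mem_filter.2 ⟨mem_univ _, fun h2 => ?_⟩)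
          exact (Finset.mem_filter.1 hy).2 (cl_mono (meet_sub hyz) h2)
      have h2 := (Finset.card_le_card h1).trans (Finset.card_insert_le _ _)
      have h3 : ((cl D (Y x)).card : ℤ) ≤
          ((univ.filter fun z => x ∉ cl D (meet D U z)).card : ℤ) + 1 := by exact_mod_cast h2
      linarith
    have e3 : ∑ x, hh D (Y x) ≤ ∑ z, (((cl D (U z)).card : ℤ) - (cl D (meet D U z)).card) := by
      have h1 : ∑ x, hh D (Y x) ≤ ∑ x, (((univ.filter fun z => x ∉ cl D (meet D U z)).card : ℤ) -
          ((univ.filter fun z => x ∉ cl D (U z)).card : ℤ)) := by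
        apply Finset.sum_le_sum
        intro x _
        have := e1 x
        have := e2 x
        unfold hh
        linarith
      refine h1.trans (le_of_eq ?_)
      rw [Finset.sum_sub_distrib, count_swap (fun x z => x ∉ cl D (meet D U z)),
        count_swap (fun x z => x ∉ cl D (U z)), ← Finset.sum_sub_distrib]
      apply Finset.sum_congr rfl
      intro z _
      rw [card_notMem, card_notMem]
      ring
    have e4 := gap h
    unfold GG
    have e5 : ∑ z, (((cl D (U z)).card : ℤ) - (cl D (meet D U z)).card) =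
        ∑ z, (hh D (U z) - hh D (meet D U z)) + ∑ z, ((U z).card : ℤ) -
          ∑ z, ((meet D U z).card : ℤ) := by
      rw [← Finset.sum_add_distrib, ← Finset.sum_sub_distrib]
      apply Finset.sum_congr rfl
      intro z _
      unfold hh
      ring
    simp only [Finset.sum_sub_distrib] at e3 e4 e5
    linarith

/-- The closure of an inner feasible pair is an outer feasible pair. -/
theorem outer_of_inner {D : OGraph V} {X Y : V → Finset V} (h : Inn D X Y) :
    ∃ B U, Feas D B U ∧
      GG D B U ≤ ∑ a, hh D (cl D (X a)) + ∑ a, hh D (cl D (Y a)) := by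
  set U : V → Finset V := fun a => insert a (univ.filter fun x => a ∉ cl D (Y x)) with hU
  have hcX : ∀ a z, Rf D a z → z ∈ cl D (X a) := fun a z haz => mem_cl.2 ⟨a, h.dX a, haz⟩
  have hcY : ∀ a z, Rf D a z → z ∈ cl D (Y a) := fun a z haz => mem_cl.2 ⟨a, h.dY a, haz⟩
  refine ⟨fun a => cl D (X a), U, ⟨hcX, ?_, ?_⟩, ?_⟩
  · intro a u hu
    by_cases hua : u = a
    · subst hua
      exact Finset.mem_insert_self _ _
    · exact Finset.mem_insert_of_mem (Finset.mem_filter.2 ⟨mem_univ _, h.opp a u hu hua⟩)
  · intro a z hza hz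
    rcases Finset.mem_insert.1 hz with rfl | hz
    · exact D.loopless _ hza
    · exact (Finset.mem_filter.1 hz).2 (hcY z a (Or.inr hza))
  · have e1 : ∀ a, ((U a).card : ℤ) = 1 + ((univ.filter fun x => a ∉ cl D (Y x)).card : ℤ) := by
      intro a
      simp only [hU]
      rw [Finset.card_insert_of_notMem]
      · push_cast
        ring
      · intro hx
        exact (Finset.mem_filter.1 hx).2 (hcY a a (Or.inl rfl))
    have e2 : ∀ z, 1 + ((univ.filter fun x => z ∉ cl D (cl D (Y x))).card : ℤ) ≤
        ((meet D U z).card : ℤ) := by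
      intro z
      have h1 : insert z (univ.filter fun x => z ∉ cl D (cl D (Y x))) ⊆ meet D U z := by
        intro x hx
        rw [mem_meet]
        intro a haz
        rcases Finset.mem_insert.1 hx with rfl | hx
        · by_cases hax : x = a
          · subst hax
            exact Finset.mem_insert_self _ _
          · exact Finset.mem_insert_of_mem (Finset.mem_filter.2 ⟨mem_univ _,
              h.opp a x (hcX a x haz) hax⟩)
        · refine Finset.mem_insert_of_mem (Finset.mem_filter.2 ⟨mem_univ _, fun h2 => ?_⟩)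
          exact (Finset.mem_filter.1 hx).2 (mem_cl.2 ⟨a, h2, haz⟩)
      have h2 := Finset.card_le_card h1
      rw [Finset.card_insert_of_notMem (by
        intro hx
        exact (Finset.mem_filter.1 hx).2 (subset_cl D _ (hcY z z (Or.inl rfl))))] at h2
      have h3 : ((univ.filter fun x => z ∉ cl D (cl D (Y x))).card : ℤ) + 1 ≤
          ((meet D U z).card : ℤ) := by exact_mod_cast h2
      linarith
    have e3 : ∑ a, ((U a).card : ℤ) - ∑ a, ((meet D U a).card : ℤ) ≤
        ∑ x, hh D (cl D (Y x)) := by
      rw [← Finset.sum_sub_distrib]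
      have h1 : ∑ a, (((U a).card : ℤ) - ((meet D U a).card : ℤ)) ≤
          ∑ a, (((univ.filter fun x => a ∉ cl D (Y x)).card : ℤ) -
            ((univ.filter fun x => a ∉ cl D (cl D (Y x))).card : ℤ)) := by
        apply Finset.sum_le_sum
        intro a _
        have := e1 a
        have := e2 a
        linarith
      refine h1.trans (le_of_eq ?_)
      rw [Finset.sum_sub_distrib, count_swap (fun a x => a ∉ cl D (Y x)),
        count_swap (fun a x => a ∉ cl D (cl D (Y x))), ← Finset.sum_sub_distrib]
      apply Finset.sum_congr rfl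
      intro x _
      rw [card_notMem, card_notMem]
      unfold hh
      ring
    unfold GG
    linarith

/-- The trivial inner feasible pair. -/
theorem inn_triv (D : OGraph V) : Inn D (fun a => {a}) (fun a => {a}) := by
  refine ⟨fun a => Finset.mem_singleton_self a, fun a => Finset.mem_singleton_self a, ?_⟩
  intro a u hu hua ha
  obtain ⟨y, hy, hyu⟩ := mem_cl.1 hu
  obtain ⟨y', hy', hya⟩ := mem_cl.1 ha
  rw [Finset.mem_singleton] at hy hy'
  subst hy hy'
  rcases hyu with rfl | hyu
  · exact hua rfl
  · rcases hya with rfl | hya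
    · exact hua rfl
    · exact D.asymm _ _ hyu hya

/-- **Main inequality**: some inner feasible pair has `∑ h(X) + ∑ h(Y) ≤ ∑ h(N[X]) + ∑ h(N[Y])`. -/
theorem inner_le_outer (D : OGraph V) : ∃ X Y, Inn D X Y ∧
    ∑ a, hh D (X a) + ∑ a, hh D (Y a) ≤ ∑ a, hh D (cl D (X a)) + ∑ a, hh D (cl D (Y a)) := by
  have hne : Nonempty {p : (V → Finset V) × (V → Finset V) // Inn D p.1 p.2} :=
    ⟨⟨(fun a => {a}, fun a => {a}), inn_triv D⟩⟩
  obtain ⟨x, hx⟩ := Finite.exists_min
    (fun p : {p : (V → Finset V) × (V → Finset V) // Inn D p.1 p.2} =>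
      ∑ a, hh D (p.1.1 a) + ∑ a, hh D (p.1.2 a))
  refine ⟨x.1.1, x.1.2, x.2, ?_⟩
  obtain ⟨B, U, hopt⟩ := exists_opt D
  obtain ⟨X', Y', h1, h2⟩ := candidate hopt
  obtain ⟨B', U', h3, h4⟩ := outer_of_inner x.2
  have h5 := hx ⟨(X', Y'), h1⟩
  have h6 := hopt.2 _ _ h3
  simp only at h5
  linarith

end Vale.Agent.P038.H599
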