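import Vale.Agent.P038.H599.InOut

/-!
# P038 (H599): Seymour's second neighbourhood conjecture

`strictG`: in an arc-minimal counterexample `h(N[X]) < h(X)` for every set `X` with `N[X] ≠ X`
(delete all arcs from `X` to a part of `N[X] \ X` simultaneously). `main` combines this with
`inner_le_outer`.
-/

namespace Vale.Agent.P038.H599

open Finset Classical

universe u

variable {V : Type u} [Fintype V]

/-- `D` is a counterexample. -/
def CE (D : OGraph V) : Prop := ∀ v, (N2 D v).card < (N1 D v).card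

/-- Deletion of all arcs from `X` to `Z`. -/
def del (D : OGraph V) (X Z : Finset V) : OGraph V where
  arc u v := D.arc u v ∧ ¬ (u ∈ X ∧ v ∈ Z)
  loopless v h := D.loopless v h.1
  asymm u v h h' := D.asymm u v h.1 h'.1

theorem del_row_out {D : OGraph V} (X Z : Finset V) {y : V} (hy : y ∉ X)
    (h : (N2 D y).card < (N1 D y).card) :
    (N2 (del D X Z) y).card < (N1 (del D X Z) y).card := by
  have h1 : N1 (del D X Z) y = N1 D y := by
    ext z
    rw [mem_N1, mem_N1]
    exact ⟨fun h3 => h3.1, fun h3 => ⟨h3, fun h4 => hy h4.1⟩⟩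
  have h2 : N2 (del D X Z) y ⊆ N2 D y := by
    intro z hz
    rw [mem_N2] at hz ⊢
    obtain ⟨hzv, hnz, c, hvc, hcz⟩ := hz
    exact ⟨hzv, fun h3 => hnz ⟨h3, fun h4 => hy h4.1⟩, c, hvc.1, hcz.1⟩
  have h3 := Finset.card_le_card h2
  rw [h1]
  omega

/-- The row of `y ∈ X` after deleting the arcs from `X` to `L \ T`. -/
theorem del_row_in {D : OGraph V} (X T : Finset V) {y : V} (hy : y ∈ X)
    (h : (N2 D y).card < (N1 D y).card)
    (hT : 2 * (N1 D y ∩ ((cl D X \ X) \ T)).card ≤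
      (cl D (N1 D y ∩ ((cl D X \ X) \ T)) \ (cl D T ∪ X)).card) :
    (N2 (del D X ((cl D X \ X) \ T)) y).card < (N1 (del D X ((cl D X \ X) \ T)) y).card := by
  set L := cl D X \ X with hL
  set Z := L \ T with hZ
  set D' := del D X Z with hD'
  set Dy := N1 D y ∩ Z with hDy
  set Ey := cl D Dy \ (cl D T ∪ X) with hEy
  have hN1 : N1 D' y = N1 D y \ Dy := by
    ext z
    rw [mem_N1, Finset.mem_sdiff, hDy, Finset.mem_inter, mem_N1]
    constructor
    · rintro ⟨h1, h2⟩
      exact ⟨h1, fun h3 => h2 ⟨hy, h3.2⟩⟩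
    · rintro ⟨h1, h2⟩
      exact ⟨h1, fun h3 => h2 ⟨h1, h3.2⟩⟩
  have hEsub : Ey ⊆ N2 D y ∪ Dy := by
    intro z hz
    obtain ⟨hz1, hz2⟩ := Finset.mem_sdiff.1 hz
    have hzX : z ∉ X := fun h3 => hz2 (Finset.mem_union_right _ h3)
    have hzT : z ∉ cl D T := fun h3 => hz2 (Finset.mem_union_left _ h3)
    obtain ⟨c, hc, hcz⟩ := mem_cl.1 hz1
    rcases hcz with rfl | hcz
    · exact Finset.mem_union_right _ hc
    · have hyc : D.arc y c := mem_N1.1 (Finset.mem_inter.1 hc).1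
      by_cases hyz : D.arc y z
      · refine Finset.mem_union_right _ (Finset.mem_inter.2 ⟨mem_N1.2 hyz, ?_⟩)
        refine Finset.mem_sdiff.2 ⟨?_, ?_⟩
        · exact Finset.mem_sdiff.2 ⟨mem_cl.2 ⟨y, hy, Or.inr hyz⟩, hzX⟩
        · intro h3
          exact hzT (subset_cl D T h3)
      · refine Finset.mem_union_left _ (mem_N2.2 ⟨?_, hyz, c, hyc, hcz⟩)
        rintro rfl
        exact hzX hy
  have hN2 : N2 D' y ⊆ (N2 D y ∪ Dy) \ Ey := by
    intro z hz
    rw [mem_N2] at hz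
    obtain ⟨hzy, hnz, c, hyc, hcz⟩ := hz
    refine Finset.mem_sdiff.2 ⟨?_, ?_⟩
    · by_cases hyz : D.arc y z
      · refine Finset.mem_union_right _ (Finset.mem_inter.2 ⟨mem_N1.2 hyz, ?_⟩)
        by_contra hzZ
        exact hnz ⟨hyz, fun h3 => hzZ h3.2⟩
      · exact Finset.mem_union_left _ (mem_N2.2 ⟨hzy, hyz, c, hyc.1, hcz.1⟩)
    · intro hzE
      obtain ⟨_, hz2⟩ := Finset.mem_sdiff.1 hzE
      have hzX : z ∉ X := fun h3 => hz2 (Finset.mem_union_right _ h3)
      have hzT : z ∉ cl D T := fun h3 => hz2 (Finset.mem_union_left _ h3)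
      by_cases hcX : c ∈ X
      · have hzL : z ∈ L := Finset.mem_sdiff.2 ⟨mem_cl.2 ⟨c, hcX, Or.inr hcz.1⟩, hzX⟩
        have hzZ : z ∈ Z := Finset.mem_sdiff.2 ⟨hzL, fun h3 => hzT (subset_cl D T h3)⟩
        exact hcz.2 ⟨hcX, hzZ⟩
      · have hcL : c ∈ L := Finset.mem_sdiff.2 ⟨mem_cl.2 ⟨y, hy, Or.inr hyc.1⟩, hcX⟩
        have hcT : c ∈ T := by
          by_contra hcT
          exact hyc.2 ⟨hy, Finset.mem_sdiff.2 ⟨hcL, hcT⟩⟩
        exact hzT (mem_cl.2 ⟨c, hcT, Or.inr hcz.1⟩)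
  have h1 := Finset.card_le_card hN2
  have h2 : ((N2 D y ∪ Dy) \ Ey).card + Ey.card = (N2 D y ∪ Dy).card :=
    Finset.card_sdiff_add_card_eq_card hEsub
  have h3 := Finset.card_union_le (N2 D y) Dy
  have h4 : (N1 D y \ Dy).card + Dy.card = (N1 D y).card :=
    Finset.card_sdiff_add_card_eq_card Finset.inter_subset_left
  rw [hN1]
  omega

/-- The function `d(T) = |N[T] \ X| - 2 |T|`. -/
noncomputable def dd (D : OGraph V) (X T : Finset V) : ℤ :=
  ((cl D T \ X).card : ℤ) - 2 * T.card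

theorem dd_union {D : OGraph V} {X T S : Finset V} (h : Disjoint T S) :
    dd D X (T ∪ S) = dd D X T + ((cl D S \ (cl D T ∪ X)).card : ℤ) - 2 * S.card := by
  have e1 : cl D (T ∪ S) \ X = (cl D T \ X) ∪ (cl D S \ (cl D T ∪ X)) := by
    rw [cl_union]
    ext z
    simp only [Finset.mem_sdiff, Finset.mem_union]
    tauto
  have e2 : Disjoint (cl D T \ X) (cl D S \ (cl D T ∪ X)) := by
    rw [Finset.disjoint_left]
    intro z hz hz'
    exact (Finset.mem_sdiff.1 hz').2 (Finset.mem_union_left _ (Finset.mem_sdiff.1 hz).1)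
  unfold dd
  rw [e1, Finset.card_union_of_disjoint e2, Finset.card_union_of_disjoint h]
  push_cast
  ring

theorem dd_top (D : OGraph V) (X : Finset V) :
    dd D X (cl D X \ X) = hh D (cl D X) - hh D X := by
  have h0 : X ⊆ cl D X := subset_cl D X
  have h1 : cl D (cl D X) = cl D X ∪ cl D (cl D X \ X) := by
    conv_lhs => rw [← Finset.union_sdiff_of_subset h0]
    rw [cl_union]
  have h2 : cl D (cl D X \ X) \ X = cl D (cl D X) \ X := by
    ext z
    rw [h1]
    simp only [Finset.mem_sdiff, Finset.mem_union]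
    constructor
    · rintro ⟨h3, h4⟩
      exact ⟨Or.inr h3, h4⟩
    · rintro ⟨h3 | h3, h4⟩
      · exact ⟨subset_cl D _ (Finset.mem_sdiff.2 ⟨h3, h4⟩), h4⟩
      · exact ⟨h3, h4⟩
  have h5 : (cl D (cl D X) \ X).card + X.card = (cl D (cl D X)).card :=
    Finset.card_sdiff_add_card_eq_card (h0.trans (subset_cl D _))
  have h6 : (cl D X \ X).card + X.card = (cl D X).card :=
    Finset.card_sdiff_add_card_eq_card h0
  unfold dd hh
  rw [h2]
  omega

/-- **Strict (G)**: in an arc-minimal counterexample `h(N[X]) < h(X)` unless `X` is closed. -/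
theorem strictG {D : OGraph V} (hCE : CE D)
    (hmin : ∀ X Z : Finset V, CE (del D X Z) → ∀ u ∈ X, ∀ v ∈ Z, ¬ D.arc u v)
    {X : Finset V} (hX : cl D X ≠ X) : hh D (cl D X) < hh D X := by
  by_contra hcon
  push Not at hcon
  have h0 : X ⊆ cl D X := subset_cl D X
  have hLne : (cl D X \ X).Nonempty := by
    rw [Finset.sdiff_nonempty]
    exact fun h => hX (Finset.Subset.antisymm h h0)
  have htop : 0 ≤ dd D X (cl D X \ X) := by
    rw [dd_top]
    linarith
  have hemp : dd D X ∅ = 0 := by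
    have : cl D (∅ : Finset V) = ∅ := by
      ext z
      simp [mem_cl]
    unfold dd
    rw [this]
    simp
  obtain ⟨T, hT, hTmin⟩ := Finset.exists_min_image ((cl D X \ X).ssubsets) (dd D X)
    ⟨∅, Finset.mem_ssubsets.2 (Finset.ssubset_iff_subset_ne.2
      ⟨Finset.empty_subset _, fun h => hLne.ne_empty h.symm⟩)⟩
  rw [Finset.mem_ssubsets] at hT
  have hT0 : dd D X T ≤ 0 := by
    rw [← hemp]
    exact hTmin ∅ (Finset.mem_ssubsets.2 (Finset.ssubset_iff_subset_ne.2
      ⟨Finset.empty_subset _, fun h => hLne.ne_empty h.symm⟩))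
  have hall : ∀ S, S ⊆ cl D X \ X → dd D X T ≤ dd D X S := by
    intro S hS
    by_cases h : S = cl D X \ X
    · rw [h]
      linarith
    · exact hTmin S (Finset.mem_ssubsets.2 (Finset.ssubset_iff_subset_ne.2 ⟨hS, h⟩))
  have hdel : CE (del D X ((cl D X \ X) \ T)) := by
    intro v
    by_cases hv : v ∈ X
    · apply del_row_in X T hv (hCE v)
      have hd : Disjoint T (N1 D v ∩ ((cl D X \ X) \ T)) := by
        rw [Finset.disjoint_left]
        intro z hz hz'
        exact (Finset.mem_sdiff.1 (Finset.mem_inter.1 hz').2).2 hz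
      have h1 := hall (T ∪ (N1 D v ∩ ((cl D X \ X) \ T)))
        (Finset.union_subset hT.subset (Finset.inter_subset_right.trans Finset.sdiff_subset))
      rw [dd_union hd] at h1
      have h2 : 2 * ((N1 D v ∩ ((cl D X \ X) \ T)).card : ℤ) ≤
        ((cl D (N1 D v ∩ ((cl D X \ X) \ T)) \ (cl D T ∪ X)).card : ℤ) := by linarith
      exact_mod_cast h2
    · exact del_row_out X _ hv (hCE v)
  obtain ⟨z, hzL, hzT⟩ := Finset.exists_of_ssubset hT
  obtain ⟨hz1, hz2⟩ := Finset.mem_sdiff.1 hzL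
  obtain ⟨y, hy, hyz⟩ := mem_cl.1 hz1
  rcases hyz with rfl | hyz
  · exact hz2 hy
  · exact hmin _ _ hdel y hy z (Finset.mem_sdiff.2 ⟨hzL, hzT⟩) hyz

/-- There is an arc-minimal counterexample if there is one. -/
theorem exists_arcmin {D : OGraph V} (h : CE D) : ∃ D : OGraph V, CE D ∧
    ∀ X Z : Finset V, CE (del D X Z) → ∀ u ∈ X, ∀ v ∈ Z, ¬ D.arc u v := by
  have hex : ∃ n, ∃ D : OGraph V, CE D ∧ ∑ v, (N1 D v).card = n := ⟨_, D, h, rfl⟩
  obtain ⟨D', h1, h2⟩ := Nat.find_spec hex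
  refine ⟨D', h1, ?_⟩
  intro X Z hXZ u hu v hv huv
  have h3 : ∑ v, (N1 (del D' X Z) v).card < ∑ v, (N1 D' v).card := by
    apply Finset.sum_lt_sum
    · intro x _
      apply Finset.card_le_card
      intro z hz
      exact mem_N1.2 (mem_N1.1 hz).1
    · refine ⟨u, mem_univ _, Finset.card_lt_card ?_⟩
      refine Finset.ssubset_iff_subset_ne.2 ⟨?_, ?_⟩
      · intro z hz
        exact mem_N1.2 (mem_N1.1 hz).1
      · intro h4
        have h5 : v ∈ N1 (del D' X Z) u := by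
          rw [h4]
          exact mem_N1.2 huv
        exact (mem_N1.1 h5).2 ⟨hu, hv⟩
  rw [h2] at h3
  exact Nat.find_min hex h3 ⟨_, hXZ, rfl⟩

/-- There is no counterexample. -/
theorem no_CE [Nonempty V] (D : OGraph V) : ¬ CE D := by
  intro h
  obtain ⟨D, hCE, hmin⟩ := exists_arcmin h
  have hG : ∀ X : Finset V, cl D X ≠ X → hh D (cl D X) < hh D X :=
    fun X hX => strictG hCE hmin hX
  have hG' : ∀ X : Finset V, hh D (cl D X) ≤ hh D X := by
    intro X
    by_cases hX : cl D X = X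
    · rw [hX]
    · exact (hG X hX).le
  obtain ⟨X, Y, hXY, hle⟩ := inner_le_outer D
  have hX : ∀ a, cl D (X a) = X a := by
    by_contra hcon
    push Not at hcon
    obtain ⟨a, ha⟩ := hcon
    have h1 : ∑ a, hh D (cl D (X a)) < ∑ a, hh D (X a) :=
      Finset.sum_lt_sum (fun b _ => hG' _) ⟨a, mem_univ _, hG _ ha⟩
    have h2 : ∑ a, hh D (cl D (Y a)) ≤ ∑ a, hh D (Y a) := Finset.sum_le_sum fun b _ => hG' _
    linarith
  have hY : ∀ a, cl D (Y a) = Y a := by
    by_contra hcon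
    push Not at hcon
    obtain ⟨a, ha⟩ := hcon
    have h1 : ∑ a, hh D (cl D (Y a)) < ∑ a, hh D (Y a) :=
      Finset.sum_lt_sum (fun b _ => hG' _) ⟨a, mem_univ _, hG _ ha⟩
    have h2 : ∑ a, hh D (cl D (X a)) ≤ ∑ a, hh D (X a) := Finset.sum_le_sum fun b _ => hG' _
    linarith
  -- a minimal nonempty closed set
  obtain ⟨S, hS, hSmin⟩ := Finset.exists_min_image
    (univ.filter fun S : Finset V => S.Nonempty ∧ cl D S = S) Finset.card
    ⟨univ, Finset.mem_filter.2 ⟨mem_univ _, Finset.univ_nonempty,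
      Finset.eq_univ_iff_forall.2 fun z => subset_cl D _ (mem_univ z)⟩⟩
  obtain ⟨_, ⟨a, ha⟩, hSc⟩ := Finset.mem_filter.1 hS
  -- closed sets meeting `S` contain `S`
  have hcont : ∀ Q : Finset V, cl D Q = Q → (∃ b ∈ S, b ∈ Q) → S ⊆ Q := by
    rintro Q hQ ⟨b, hb, hbQ⟩
    have h1 : cl D (S ∩ Q) = S ∩ Q := by
      apply Finset.Subset.antisymm _ (subset_cl D _)
      apply Finset.subset_inter
      · calc cl D (S ∩ Q) ⊆ cl D S := cl_mono Finset.inter_subset_left
          _ = S := hSc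
      · calc cl D (S ∩ Q) ⊆ cl D Q := cl_mono Finset.inter_subset_right
          _ = Q := hQ
    have h2 := hSmin (S ∩ Q) (Finset.mem_filter.2 ⟨mem_univ _,
      ⟨b, Finset.mem_inter.2 ⟨hb, hbQ⟩⟩, h1⟩)
    have h3 : S ∩ Q = S := Finset.eq_of_subset_of_card_le Finset.inter_subset_left h2
    rw [← h3]
    exact Finset.inter_subset_right
  have hne : (N1 D a).Nonempty := by
    rw [← Finset.card_pos]
    exact lt_of_le_of_lt (Nat.zero_le _) (hCE a)
  obtain ⟨x, hx⟩ := hne
  rw [mem_N1] at hx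
  have hxS : x ∈ S := by
    rw [← hSc]
    exact mem_cl.2 ⟨a, ha, Or.inr hx⟩
  have hxa : x ≠ a := by
    rintro rfl
    exact D.loopless _ hx
  have h1 : x ∈ X a := hcont (X a) (hX a) ⟨a, ha, hXY.dX a⟩ hxS
  have h2 : a ∈ Y x := hcont (Y x) (hY x) ⟨x, hxS, hXY.dY x⟩ ha
  exact hXY.opp a x (subset_cl D _ h1) hxa (subset_cl D _ h2)

/-- **Seymour's second neighbourhood conjecture.** -/
theorem main [Nonempty V] (D : OGraph V) : ∃ v, (N1 D v).card ≤ (N2 D v).card := by
  by_contra hcon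
  push Not at hcon
  exact no_CE D hcon

end Vale.Agent.P038.H599
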