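import Vale.Agent.P038.Defs
import Mathlib.Combinatorics.Hall.Basic


/-!
# P038 (H599): the submodular function `h` and the gap inequality (unweighted)
-/

namespace Vale.Agent.P038.H599

open Finset Classical

universe u

variable {V : Type u} [Fintype V]

/-- The reflexive adjacency. -/
def Rf (D : OGraph V) (y z : V) : Prop := y = z ∨ D.arc y z

/-- Closed out-neighbourhood of a set. -/
noncomputable def cl (D : OGraph V) (S : Finset V) : Finset V :=
  univ.filter fun z => ∃ y ∈ S, Rf D y z

theorem mem_cl {D : OGraph V} {S : Finset V} {z : V} : z ∈ cl D S ↔ ∃ y ∈ S, Rf D y z := by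
  simp [cl]

theorem subset_cl (D : OGraph V) (S : Finset V) : S ⊆ cl D S :=
  fun z hz => mem_cl.2 ⟨z, hz, Or.inl rfl⟩

theorem cl_mono {D : OGraph V} {S T : Finset V} (h : S ⊆ T) : cl D S ⊆ cl D T := by
  intro z hz
  obtain ⟨y, hy, hyz⟩ := mem_cl.1 hz
  exact mem_cl.2 ⟨y, h hy, hyz⟩

theorem cl_union (D : OGraph V) (S T : Finset V) : cl D (S ∪ T) = cl D S ∪ cl D T := by
  ext z
  simp only [mem_cl, mem_union]
  constructor
  · rintro ⟨y, hy | hy, hyz⟩
    · exact Or.inl ⟨y, hy, hyz⟩
    · exact Or.inr ⟨y, hy, hyz⟩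
  · rintro (⟨y, hy, hyz⟩ | ⟨y, hy, hyz⟩)
    · exact ⟨y, Or.inl hy, hyz⟩
    · exact ⟨y, Or.inr hy, hyz⟩

/-- `h(S) = |N[S]| - |S|`. -/
noncomputable def hh (D : OGraph V) (S : Finset V) : ℤ := ((cl D S).card : ℤ) - S.card

theorem hh_submod (D : OGraph V) (S T : Finset V) :
    hh D (S ∪ T) + hh D (S ∩ T) ≤ hh D S + hh D T := by
  have h1 := Finset.card_union_add_card_inter S T
  have h2 := Finset.card_union_add_card_inter (cl D S) (cl D T)
  have h3 : (cl D (S ∩ T)).card ≤ (cl D S ∩ cl D T).card := by
    apply Finset.card_le_card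
    exact Finset.subset_inter (cl_mono Finset.inter_subset_left)
      (cl_mono Finset.inter_subset_right)
  have h4 : (cl D (S ∪ T)).card = (cl D S ∪ cl D T).card := by rw [cl_union]
  unfold hh
  omega

/-- The sets between `P` (and `W ∩ Q`) and `Q`. -/
noncomputable def fam (P Q W : Finset V) : Finset (Finset V) :=
  univ.filter fun Y => P ⊆ Y ∧ W ∩ Q ⊆ Y ∧ Y ⊆ P ∪ Q

theorem mem_fam {P Q W Y : Finset V} : Y ∈ fam P Q W ↔ P ⊆ Y ∧ W ∩ Q ⊆ Y ∧ Y ⊆ P ∪ Q := by
  simp [fam]

theorem fam_ne (P Q W : Finset V) : (fam P Q W).Nonempty :=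
  ⟨P ∪ Q, mem_fam.2 ⟨subset_union_left, inter_subset_right.trans subset_union_right,
    Subset.rfl⟩⟩

/-- The minimum of `h` over `fam P Q W`. -/
noncomputable def kk (D : OGraph V) (P Q W : Finset V) : ℤ :=
  (fam P Q W).inf' (fam_ne P Q W) (hh D)

theorem kk_le {D : OGraph V} {P Q W Y : Finset V} (h : Y ∈ fam P Q W) : kk D P Q W ≤ hh D Y :=
  Finset.inf'_le _ h

theorem kk_mem (D : OGraph V) (P Q W : Finset V) : ∃ Y ∈ fam P Q W, kk D P Q W = hh D Y :=
  Finset.exists_mem_eq_inf' _ _

theorem kk_univ {D : OGraph V} {P Q : Finset V} (h : P ⊆ Q) : kk D P Q univ = hh D Q := by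
  obtain ⟨Y, hY, he⟩ := kk_mem D P Q univ
  obtain ⟨_, h2, h3⟩ := mem_fam.1 hY
  have h4 : Y = Q := by
    apply Finset.Subset.antisymm
    · rwa [Finset.union_eq_right.2 h] at h3
    · rwa [Finset.univ_inter] at h2
  rw [he, h4]

theorem kk_mono {D : OGraph V} {P Q W W' : Finset V} (h : W ⊆ W') :
    kk D P Q W ≤ kk D P Q W' := by
  obtain ⟨Y, hY, he⟩ := kk_mem D P Q W'
  obtain ⟨h1, h2, h3⟩ := mem_fam.1 hY
  rw [he]
  exact kk_le (mem_fam.2 ⟨h1, (Finset.inter_subset_inter_right h).trans h2, h3⟩)

/-- Relations `B ⊆ U` containing the reflexive adjacency, without reversed arcs. -/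
structure Feas (D : OGraph V) (B U : V → Finset V) : Prop where
  adj : ∀ a z, Rf D a z → z ∈ B a
  sub : ∀ a, B a ⊆ U a
  rev : ∀ a z, D.arc z a → z ∉ U a

/-- Intersection of the rows over the closed in-neighbourhood. -/
noncomputable def meet (D : OGraph V) (U : V → Finset V) (z : V) : Finset V :=
  univ.filter fun x => ∀ a, Rf D a z → x ∈ U a

theorem mem_meet {D : OGraph V} {U : V → Finset V} {z x : V} :
    x ∈ meet D U z ↔ ∀ a, Rf D a z → x ∈ U a := by simp [meet]

theorem meet_sub {D : OGraph V} {U : V → Finset V} {a z : V} (h : Rf D a z) :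
    meet D U z ⊆ U a := fun _ hx => mem_meet.1 hx a h

/-- The outer cost. -/
noncomputable def GG (D : OGraph V) (B U : V → Finset V) : ℤ :=
  ∑ a, hh D (B a) + ∑ a, ((U a).card : ℤ) - ∑ a, ((meet D U a).card : ℤ)

/-- `(B, U)` is an optimal pair. -/
def Opt (D : OGraph V) (B U : V → Finset V) : Prop :=
  Feas D B U ∧ ∀ B' U', Feas D B' U' → GG D B U ≤ GG D B' U'

theorem exists_opt (D : OGraph V) : ∃ B U, Opt D B U := by
  have hne : Nonempty {p : (V → Finset V) × (V → Finset V) // Feas D p.1 p.2} := by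
    refine ⟨⟨(fun a => univ.filter fun z => Rf D a z, fun a => univ.filter fun z => Rf D a z),
      ?_, ?_, ?_⟩⟩
    · intro a z h
      simp [h]
    · intro a
      exact Subset.rfl
    · intro a z h h2
      simp only [mem_filter, mem_univ, true_and] at h2
      rcases h2 with rfl | h2
      · exact D.loopless _ h
      · exact D.asymm _ _ h h2
  obtain ⟨x, hx⟩ := Finite.exists_min
    (fun p : {p : (V → Finset V) × (V → Finset V) // Feas D p.1 p.2} => GG D p.1.1 p.1.2)
  exact ⟨x.1.1, x.1.2, x.2, fun B' U' h => hx ⟨(B', U'), h⟩⟩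

/-- (R): the rows of `B` are optimal between `B a` and `U a`. -/
theorem Opt.row {D : OGraph V} {B U : V → Finset V} (h : Opt D B U) {a : V} {Y : Finset V}
    (h1 : B a ⊆ Y) (h2 : Y ⊆ U a) : hh D (B a) ≤ hh D Y := by
  have hf : Feas D (Function.update B a Y) U := by
    refine ⟨?_, ?_, h.1.rev⟩
    · intro b z hbz
      by_cases hb : b = a
      · subst hb
        simp only [Function.update_self]
        exact h1 (h.1.adj _ _ hbz)
      · simp only [Function.update_of_ne hb]
        exact h.1.adj _ _ hbz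
    · intro b
      by_cases hb : b = a
      · subst hb
        simpa only [Function.update_self] using h2
      · simp only [Function.update_of_ne hb]
        exact h.1.sub b
  have h3 := h.2 _ _ hf
  unfold GG at h3
  have h4 : ∑ b, hh D (Function.update B a Y b) + hh D (B a) = ∑ b, hh D (B b) + hh D Y := by
    rw [← Finset.add_sum_erase univ _ (mem_univ a), ← Finset.add_sum_erase univ (fun b => hh D (B b))
      (mem_univ a)]
    have h5 : ∑ x ∈ univ.erase a, hh D (Function.update B a Y x) =
        ∑ x ∈ univ.erase a, hh D (B x) := by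
      apply Finset.sum_congr rfl
      intro x hx
      rw [Function.update_of_ne (Finset.ne_of_mem_erase hx)]
    rw [h5]
    simp only [Function.update_self]
    ring
  linarith

/-- (C): Hall's condition in the columns. -/
theorem Opt.col {D : OGraph V} {B U : V → Finset V} (h : Opt D B U) {b : V} {S : Finset V}
    (hS : ∀ a ∈ S, b ∈ U a ∧ b ∉ B a) :
    S.card ≤ (univ.filter fun z => b ∈ meet D U z ∧ ∃ a ∈ S, Rf D a z).card := by
  set U' : V → Finset V := fun a => if a ∈ S then (U a).erase b else U a with hU'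
  have hsub : ∀ a, U' a ⊆ U a := by
    intro a
    simp only [hU']
    split_ifs
    · exact Finset.erase_subset _ _
    · exact Subset.rfl
  have hf : Feas D B U' := by
    refine ⟨h.1.adj, ?_, ?_⟩
    · intro a x hx
      simp only [hU']
      split_ifs with ha
      · refine Finset.mem_erase.2 ⟨?_, h.1.sub a hx⟩
        rintro rfl
        exact (hS a ha).2 hx
      · exact h.1.sub a hx
    · intro a z haz hz
      exact h.1.rev a z haz (hsub a hz)
  have h3 := h.2 _ _ hf
  unfold GG at h3
  have h4 : ∑ a, ((U a).card : ℤ) = ∑ a, ((U' a).card : ℤ) + S.card := by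
    have h5 : (S.card : ℤ) = ∑ a : V, (if a ∈ S then (1 : ℤ) else 0) := by
      simp
    rw [h5, ← Finset.sum_add_distrib]
    apply Finset.sum_congr rfl
    intro a _
    simp only [hU']
    split_ifs with ha
    · have h6 := Finset.card_erase_add_one (hS a ha).1
      exact_mod_cast h6.symm
    · simp
  have h7 : ∑ a, ((meet D U a).card : ℤ) = ∑ a, ((meet D U' a).card : ℤ) +
      (univ.filter fun z => b ∈ meet D U z ∧ ∃ a ∈ S, Rf D a z).card := by
    rw [Finset.card_filter, Nat.cast_sum, ← Finset.sum_add_distrib]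
    apply Finset.sum_congr rfl
    intro z _
    by_cases hz : b ∈ meet D U z ∧ ∃ a ∈ S, Rf D a z
    · obtain ⟨hz1, a, ha, haz⟩ := hz
      rw [if_pos ⟨hz1, a, ha, haz⟩]
      have h8 : meet D U' z = (meet D U z).erase b := by
        ext x
        rw [Finset.mem_erase, mem_meet, mem_meet]
        constructor
        · intro h9
          refine ⟨?_, fun c hc => hsub c (h9 c hc)⟩
          rintro rfl
          have h10 := h9 a haz
          simp only [hU', if_pos ha, Finset.mem_erase] at h10
          exact h10.1 rfl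
        · rintro ⟨hxb, h9⟩ c hc
          simp only [hU']
          split_ifs
          · exact Finset.mem_erase.2 ⟨hxb, h9 c hc⟩
          · exact h9 c hc
      rw [h8]
      have h6 := Finset.card_erase_add_one hz1
      exact_mod_cast h6.symm
    · rw [if_neg hz]
      have h8 : meet D U' z = meet D U z := by
        ext x
        rw [mem_meet, mem_meet]
        constructor
        · intro h9 c hc
          exact hsub c (h9 c hc)
        · intro h9 c hc
          simp only [hU']
          split_ifs with hcS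
          · refine Finset.mem_erase.2 ⟨?_, h9 c hc⟩
            rintro rfl
            exact hz ⟨mem_meet.2 h9, c, hcS, hc⟩
          · exact h9 c hc
      rw [h8]
      simp
  have h9 : (S.card : ℤ) ≤
      ((univ.filter fun z => b ∈ meet D U z ∧ ∃ a ∈ S, Rf D a z).card : ℤ) := by
    linarith
  exact_mod_cast h9

theorem meet_mono {D : OGraph V} {B U : V → Finset V} (h : ∀ a, B a ⊆ U a) (z : V) :
    meet D B z ⊆ meet D U z := by
  intro x hx
  rw [mem_meet] at hx ⊢
  exact fun a ha => h a (hx a ha)

theorem kk_zero {D : OGraph V} {B U : V → Finset V} (h : Opt D B U) (a : V) :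
    kk D (B a) (U a) ∅ = hh D (B a) := by
  apply le_antisymm
  · apply kk_le
    refine mem_fam.2 ⟨Subset.rfl, ?_, subset_union_left⟩
    simp
  · obtain ⟨Y, hY, he⟩ := kk_mem D (B a) (U a) ∅
    obtain ⟨h1, _, h3⟩ := mem_fam.1 hY
    rw [he]
    rw [Finset.union_eq_right.2 (h.1.sub a)] at h3
    exact h.row h1 h3

/-- Intersecting with rows of `B` does not increase `h`. -/
theorem hh_inter_rows {D : OGraph V} {B U : V → Finset V} (h : Opt D B U) {z : V}
    {Y : Finset V} (hY : Y ⊆ meet D U z) (T : Finset V) (hT : ∀ a ∈ T, Rf D a z) :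
    hh D (Y.filter fun x => ∀ a ∈ T, x ∈ B a) ≤ hh D Y := by
  induction T using Finset.induction_on with
  | empty => simp
  | insert c T hc ih =>
    have ih' := ih (fun a ha => hT a (Finset.mem_insert_of_mem ha))
    set YT := Y.filter fun x => ∀ a ∈ T, x ∈ B a with hYT
    have h1 : (Y.filter fun x => ∀ a ∈ insert c T, x ∈ B a) = YT ∩ B c := by
      ext x
      simp only [hYT, mem_filter, mem_inter, Finset.mem_insert, forall_eq_or_imp]
      tauto
    have h2 := hh_submod D YT (B c)
    have h3 : hh D (B c) ≤ hh D (YT ∪ B c) := by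
      apply h.row subset_union_right
      apply Finset.union_subset _ (h.1.sub c)
      intro x hx
      exact meet_sub (hT c (Finset.mem_insert_self _ _)) (hY (Finset.mem_filter.1 hx).1)
    rw [h1]
    linarith

theorem kk_meet_zero {D : OGraph V} {B U : V → Finset V} (h : Opt D B U) (z : V) :
    kk D (meet D B z) (meet D U z) ∅ = hh D (meet D B z) := by
  apply le_antisymm
  · apply kk_le
    refine mem_fam.2 ⟨Subset.rfl, ?_, subset_union_left⟩
    simp
  · obtain ⟨Y, hY, he⟩ := kk_mem D (meet D B z) (meet D U z) ∅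
    obtain ⟨h1, _, h3⟩ := mem_fam.1 hY
    rw [he]
    rw [Finset.union_eq_right.2 (meet_mono h.1.sub z)] at h3
    have h4 := hh_inter_rows h h3 (univ.filter fun a => Rf D a z) (by simp)
    have h5 : (Y.filter fun x => ∀ a ∈ univ.filter (fun a => Rf D a z), x ∈ B a) =
        meet D B z := by
      ext x
      simp only [mem_filter, mem_univ, true_and, mem_meet]
      constructor
      · exact fun h6 => h6.2
      · exact fun h6 => ⟨h1 (mem_meet.2 h6), h6⟩
    rw [h5] at h4
    exact h4

/-- (2): the increments in `z` dominate the increments in `a`. -/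
theorem incr_le {D : OGraph V} {B U : V → Finset V} (h : Opt D B U) {a z b : V}
    (haz : Rf D a z) (hb : b ∈ meet D U z) (W : Finset V) :
    kk D (B a) (U a) (insert b W) + kk D (meet D B z) (meet D U z) W ≤
      kk D (meet D B z) (meet D U z) (insert b W) + kk D (B a) (U a) W := by
  obtain ⟨Y, hY, he⟩ := kk_mem D (meet D B z) (meet D U z) (insert b W)
  obtain ⟨Y', hY', he'⟩ := kk_mem D (B a) (U a) W
  obtain ⟨h1, h2, h3⟩ := mem_fam.1 hY
  obtain ⟨h1', h2', h3'⟩ := mem_fam.1 hY'
  rw [Finset.union_eq_right.2 (meet_mono h.1.sub z)] at h3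
  rw [Finset.union_eq_right.2 (h.1.sub a)] at h3'
  have hMU : meet D U z ⊆ U a := meet_sub haz
  have hmB : meet D B z ⊆ B a := meet_sub haz
  have e1 : kk D (B a) (U a) (insert b W) ≤ hh D (Y ∪ Y') := by
    apply kk_le
    refine mem_fam.2 ⟨h1'.trans subset_union_right, ?_, ?_⟩
    · intro x hx
      obtain ⟨hx1, hx2⟩ := Finset.mem_inter.1 hx
      rcases Finset.mem_insert.1 hx1 with rfl | hx1
      · exact Finset.mem_union_left _
          (h2 (Finset.mem_inter.2 ⟨Finset.mem_insert_self _ _, hb⟩))
      · exact Finset.mem_union_right _ (h2' (Finset.mem_inter.2 ⟨hx1, hx2⟩))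
    · exact (Finset.union_subset (h3.trans hMU) h3').trans subset_union_right
  have e2 : kk D (meet D B z) (meet D U z) W ≤ hh D (Y ∩ Y') := by
    apply kk_le
    refine mem_fam.2 ⟨Finset.subset_inter h1 (hmB.trans h1'), ?_, ?_⟩
    · intro x hx
      obtain ⟨hx1, hx2⟩ := Finset.mem_inter.1 hx
      refine Finset.mem_inter.2 ⟨h2 (Finset.mem_inter.2 ⟨Finset.mem_insert_of_mem hx1, hx2⟩),
        h2' (Finset.mem_inter.2 ⟨hx1, hMU hx2⟩)⟩
    · exact (Finset.inter_subset_left.trans h3).trans subset_union_right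
  have e3 := hh_submod D Y Y'
  rw [he, he']
  linarith

/-- The increments of `a` vanish outside `U a \ B a`. -/
theorem incr_zero {D : OGraph V} {P Q : Finset V} {b : V} (hb : ¬ (b ∈ Q ∧ b ∉ P))
    (W : Finset V) : kk D P Q (insert b W) = kk D P Q W := by
  have h1 : fam P Q (insert b W) = fam P Q W := by
    ext Y
    rw [mem_fam, mem_fam]
    constructor
    · rintro ⟨h1, h2, h3⟩
      exact ⟨h1, (Finset.inter_subset_inter_right (Finset.subset_insert _ _)).trans h2, h3⟩
    · rintro ⟨h1, h2, h3⟩
      refine ⟨h1, ?_, h3⟩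
      intro x hx
      obtain ⟨hx1, hx2⟩ := Finset.mem_inter.1 hx
      rcases Finset.mem_insert.1 hx1 with rfl | hx1
      · have h4 : x ∈ P := by
          by_contra h5
          exact hb ⟨hx2, h5⟩
        exact h1 h4
      · exact h2 (Finset.mem_inter.2 ⟨hx1, hx2⟩)
  unfold kk
  congr 1

/-- (3): one column. -/
theorem col_sum {D : OGraph V} {B U : V → Finset V} (h : Opt D B U) (b : V) (W : Finset V) :
    ∑ a, (kk D (B a) (U a) (insert b W) - kk D (B a) (U a) W) ≤
      ∑ z, (kk D (meet D B z) (meet D U z) (insert b W) -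
        kk D (meet D B z) (meet D U z) W) := by
  have hall := (Finset.all_card_le_biUnion_card_iff_exists_injective
    (fun a : {a : V // b ∈ U a ∧ b ∉ B a} =>
      univ.filter fun z : V => b ∈ meet D U z ∧ Rf D a.1 z)).1 (by
    intro s
    have h1 := h.col (b := b) (S := s.map (Function.Embedding.subtype _)) (by
      intro a ha
      obtain ⟨c, _, rfl⟩ := Finset.mem_map.1 ha
      exact c.2)
    rw [Finset.card_map] at h1
    refine h1.trans (Finset.card_le_card ?_)
    intro z hz
    obtain ⟨_, hz1, a, ha, haz⟩ := Finset.mem_filter.1 hz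
    obtain ⟨c, hc, rfl⟩ := Finset.mem_map.1 ha
    exact Finset.mem_biUnion.2 ⟨c, hc, Finset.mem_filter.2 ⟨mem_univ _, hz1, haz⟩⟩)
  obtain ⟨f, hf, hfm⟩ := hall
  have e1 : ∑ a, (kk D (B a) (U a) (insert b W) - kk D (B a) (U a) W) =
      ∑ a : {a : V // b ∈ U a ∧ b ∉ B a},
        (kk D (B a.1) (U a.1) (insert b W) - kk D (B a.1) (U a.1) W) := by
    rw [← Finset.sum_filter_add_sum_filter_not univ (fun a => b ∈ U a ∧ b ∉ B a)]
    have e2 : ∑ a ∈ univ.filter (fun a => ¬ (b ∈ U a ∧ b ∉ B a)),
        (kk D (B a) (U a) (insert b W) - kk D (B a) (U a) W) = 0 := by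
      apply Finset.sum_eq_zero
      intro a ha
      rw [incr_zero (Finset.mem_filter.1 ha).2, sub_self]
    rw [e2, add_zero]
    apply Finset.sum_subtype
    intro a
    simp
  rw [e1]
  have e3 : ∑ a : {a : V // b ∈ U a ∧ b ∉ B a},
        (kk D (B a.1) (U a.1) (insert b W) - kk D (B a.1) (U a.1) W) ≤
      ∑ a : {a : V // b ∈ U a ∧ b ∉ B a},
        (kk D (meet D B (f a)) (meet D U (f a)) (insert b W) -
          kk D (meet D B (f a)) (meet D U (f a)) W) := by
    apply Finset.sum_le_sum
    intro a _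
    obtain ⟨_, h1, h2⟩ := Finset.mem_filter.1 (hfm a)
    have h3 := incr_le h h2 h1 W
    linarith
  refine e3.trans ?_
  have e4 := Finset.sum_map univ ⟨f, hf⟩ (fun z => kk D (meet D B z) (meet D U z) (insert b W) -
          kk D (meet D B z) (meet D U z) W)
  simp only [Function.Embedding.coeFn_mk] at e4
  rw [← e4]
  apply Finset.sum_le_sum_of_subset_of_nonneg (Finset.subset_univ _)
  intro z _ _
  have h4 := kk_mono (D := D) (P := meet D B z) (Q := meet D U z) (Finset.subset_insert b W)
  linarith

/-- The gap inequality. -/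
theorem gap {D : OGraph V} {B U : V → Finset V} (h : Opt D B U) :
    ∑ a, (hh D (U a) - hh D (B a)) ≤ ∑ z, (hh D (meet D U z) - hh D (meet D B z)) := by
  have key : ∀ W : Finset V,
      ∑ a, (kk D (B a) (U a) W - hh D (B a)) ≤
        ∑ z, (kk D (meet D B z) (meet D U z) W - hh D (meet D B z)) := by
    intro W
    induction W using Finset.induction_on with
    | empty =>
      apply le_of_eq
      rw [Finset.sum_eq_zero, Finset.sum_eq_zero]
      · intro z _
        rw [kk_meet_zero h, sub_self]
      · intro a _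
        rw [kk_zero h, sub_self]
    | insert b W hb ih =>
      have h1 := col_sum h b W
      simp only [Finset.sum_sub_distrib] at h1 ih ⊢
      linarith
  have h2 := key univ
  have h3 : ∀ a, kk D (B a) (U a) univ = hh D (U a) := fun a => kk_univ (h.1.sub a)
  have h4 : ∀ z, kk D (meet D B z) (meet D U z) univ = hh D (meet D U z) :=
    fun z => kk_univ (meet_mono h.1.sub z)
  simpa only [h3, h4] using h2

end Vale.Agent.P038.H599
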